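import Vale.Agent.P235.ST.H386.World
import Vale.Agent.P235.ST.H945.Top

/-!
P235 (ST) (helper386): the O(1) form of `Red.core` (helper945's `Core1`) from part B.
-/

namespace Vale.Agent.P235.STO.H386

open SimpleGraph Vale.Agent.P235 Vale.Agent.P235.Red Finset

theorem nd_mul (R a b : ℕ) : nd (R * a) (R * b) = R * nd a b := by
  unfold nd
  rw [mul_add, Nat.mul_sub, Nat.mul_sub]

/-- scaling of the heights -/
theorem dN_mul {V : Type} {h : V → ℕ} {B : ℕ → Set V} {N : ℕ} (hc : (bagGraph B N).Connected)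
    (R : ℕ) (x y : V) : R * dN h B N x y ≤ dN (fun v => R * h v) B N x y := by
  obtain ⟨w, hw⟩ := dN_attained (h := fun v => R * h v) hc x y
  have h1 : ∀ {a b : V} (w : (bagGraph B N).Walk a b),
      (w.edges.map (Red.len fun v => R * h v)).sum = R * (w.edges.map (Red.len h)).sum := by
    intro a b w
    induction w with
    | nil => simp
    | @cons a c b hac p ih =>
      rw [Walk.edges_cons, List.map_cons, List.sum_cons, List.map_cons, List.sum_cons, ih, len_mk,
        len_mk, nd_mul, mul_add]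
  rw [← hw, h1]
  exact Nat.mul_le_mul_left _ (dN_le w)

/-- clamped bags -/
theorem clamp {V : Type} {B : ℕ → Set V} {N : ℕ} (hc : (bagGraph B N).Connected)
    (every : ∀ v, ∃ i ≤ N, v ∈ B i)
    (convex : ∀ v i j k, i ≤ j → j ≤ k → k ≤ N → v ∈ B i → v ∈ B k → v ∈ B j) :
    ∃ B' : ℕ → Set V, bagGraph B' N = bagGraph B N ∧ (∀ v, ∃ i ≤ N, v ∈ B' i) ∧
      (∀ v i j k, i ≤ j → j ≤ k → k ≤ N → v ∈ B' i → v ∈ B' k → v ∈ B' j) ∧
      (∀ k ≤ N, (B' k).Nonempty) ∧ ∀ i ≤ N, (B i).Nonempty → ∃ j ≤ N, B' j = B i := by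
  classical
  obtain ⟨v0⟩ := hc.nonempty
  obtain ⟨m0, hm0, hv0⟩ := every v0
  have hex : ∃ i, i ≤ N ∧ (B i).Nonempty := ⟨m0, hm0, v0, hv0⟩
  obtain ⟨i0, ⟨hi0, hne0⟩, hmin⟩ : ∃ i, (i ≤ N ∧ (B i).Nonempty) ∧
      ∀ j, j ≤ N ∧ (B j).Nonempty → i ≤ j :=
    ⟨Nat.find hex, Nat.find_spec hex, fun j hj => Nat.find_min' hex hj⟩
  obtain ⟨i1, ⟨hi1, hne1⟩, hmax⟩ : ∃ i, (i ≤ N ∧ (B i).Nonempty) ∧
      ∀ j, j ≤ N ∧ (B j).Nonempty → j ≤ i := by
    have hfin : {i | i ≤ N ∧ (B i).Nonempty}.Finite := (Set.finite_Iic N).subset fun i hi => hi.1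
    obtain ⟨i, hi, hm⟩ := hfin.exists_maximal ⟨i0, hi0, hne0⟩
    refine ⟨i, hi, fun j hj => ?_⟩
    rcases le_total j i with h | h
    · exact h
    · exact hm hj h
  have h01 : i0 ≤ i1 := hmin i1 ⟨hi1, hne1⟩
  -- the bags between are nonempty
  have hmid : ∀ j, i0 ≤ j → j ≤ i1 → (B j).Nonempty := by
    intro j hj0 hj1
    by_contra hcon
    rw [Set.not_nonempty_iff_eq_empty] at hcon
    obtain ⟨x, hx⟩ := hne0
    obtain ⟨y, hy⟩ := hne1
    have hstep : ∀ {a b : V} (w : (bagGraph B N).Walk a b), (∃ i < j, a ∈ B i) →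
        ∃ i < j, b ∈ B i := by
      intro a b w
      induction w with
      | nil => exact id
      | @cons a c b hac p ih =>
        rintro ⟨i, hi, hai⟩
        obtain ⟨-, m, hm, ham, hcm⟩ := hac
        refine ih ?_
        rcases Nat.lt_or_ge m j with h1 | h1
        · exact ⟨m, h1, hcm⟩
        · exfalso
          have := convex a i j m hi.le h1 hm hai ham
          rw [hcon] at this
          exact this
    have hlt0 : i0 < j := by
      rcases hj0.lt_or_eq with h | h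
      · exact h
      · exfalso
        rw [← h] at hcon
        rw [hcon] at hx
        exact hx
    obtain ⟨w⟩ := hc x y
    obtain ⟨i, hi, hyi⟩ := hstep w ⟨i0, hlt0, hx⟩
    have := convex y i j i1 hi.le hj1 hi1 hyi hy
    rw [hcon] at this
    exact this
  have hcl : ∀ i, i ≤ N → (B i).Nonempty → max i0 (min i i1) = i := by
    intro i hi hne
    have h1 := hmin i ⟨hi, hne⟩
    have h2 := hmax i ⟨hi, hne⟩
    rw [min_eq_left h2, max_eq_right h1]
  have hclN : ∀ i, max i0 (min i i1) ≤ N := fun i =>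
    max_le hi0 ((min_le_right _ _).trans hi1)
  have hmono : ∀ i j, i ≤ j → max i0 (min i i1) ≤ max i0 (min j i1) := fun i j hij =>
    max_le_max le_rfl (min_le_min hij le_rfl)
  refine ⟨fun i => B (max i0 (min i i1)), ?_, ?_, ?_, ?_, ?_⟩
  · ext x y
    constructor
    · rintro ⟨hxy, i, hi, h1, h2⟩
      exact ⟨hxy, _, hclN i, h1, h2⟩
    · rintro ⟨hxy, i, hi, h1, h2⟩
      refine ⟨hxy, i, hi, ?_, ?_⟩
      · show x ∈ B (max i0 (min i i1))
        rw [hcl i hi ⟨x, h1⟩]
        exact h1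
      · show y ∈ B (max i0 (min i i1))
        rw [hcl i hi ⟨x, h1⟩]
        exact h2
  · intro v
    obtain ⟨i, hi, hv⟩ := every v
    refine ⟨i, hi, ?_⟩
    show v ∈ B (max i0 (min i i1))
    rw [hcl i hi ⟨v, hv⟩]
    exact hv
  · intro v i j k hij hjk hk h1 h2
    exact convex v _ _ _ (hmono i j hij) (hmono j k hjk) (hclN k) h1 h2
  · intro k hk
    exact hmid _ (le_max_left _ _) (max_le h01 (min_le_right _ _))
  · intro i hi hne
    exact ⟨i, hi, by show B (max i0 (min i i1)) = B i; rw [hcl i hi hne]⟩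

/-- **`Core1` from part B** -/
theorem core1_of_good
    (hB : ∀ (V' : Type) [Fintype V'] (W : LWorld V'), W.N = Set.univ → Good W) :
    ST.H945.Core1 (2 ^ 190) := by
  intro V _ h B N hc every convex
  obtain ⟨B', hgr, every', convex', hne', hsame⟩ := clamp hc every convex
  set R : ℕ := 2 ^ 92 with hR
  have hRpos : (0 : ℝ) < R := by rw [hR]; positivity
  have hc' : (bagGraph B' N).Connected := by rw [hgr]; exact hc
  have hdN : ∀ h : V → ℕ, ∀ x y, dN h B' N x y = dN h B N x y := by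
    intro h x y
    unfold dN
    rw [hgr]
  obtain ⟨V', _, W, ι, hN, hup, hlow⟩ := exists_world (fun v => R * h v) B' N hc' every' convex'
    hne'
  obtain ⟨Ω, _, _, w, h1, h2⟩ := hB V' W hN
  have hcard : (0 : ℝ) < Fintype.card Ω := by exact_mod_cast Fintype.card_pos
  -- Lipschitz bound for the average
  have hlip : ∀ x y : V', ∑ o, |w o x - w o y| ≤ Fintype.card Ω * (W.G.dist x y : ℝ) := by
    intro x y
    obtain ⟨g, hg⟩ := W.conn.exists_walk_length_eq_dist x y
    rw [← hg]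
    clear hg
    induction g with
    | nil => simp
    | @cons a c b hac p ih =>
      have h3 := h1 a c hac
      have h4 : ∑ o, |w o a - w o b| ≤ ∑ o, |w o a - w o c| + ∑ o, |w o c - w o b| := by
        rw [← Finset.sum_add_distrib]
        exact Finset.sum_le_sum fun o _ => abs_sub_le _ _ _
      rw [Walk.length_cons]
      push_cast
      linarith
  have hp0 : (0 : ℝ) < 1 / (Fintype.card Ω * R) := by positivity
  have hfac : ∀ x y : V, ∑ ω, 1 / (Fintype.card Ω * (R : ℝ)) * |w ω (ι x) - w ω (ι y)| =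
      1 / (Fintype.card Ω * (R : ℝ)) * ∑ ω, |w ω (ι x) - w ω (ι y)| := fun x y => by
    rw [Finset.mul_sum]
  refine ⟨Ω, inferInstance, fun _ => 1 / (Fintype.card Ω * (R : ℝ)), fun ω x => w ω (ι x),
    fun _ => hp0.le, ?_, ?_⟩
  · intro i hi x hx y hy
    obtain ⟨j, hj, hjB⟩ := hsame i hi ⟨x, hx⟩
    have h3 := hup j hj x (by rw [hjB]; exact hx) y (by rw [hjB]; exact hy)
    rw [nd_mul] at h3
    have h3' : (W.G.dist (ι x) (ι y) : ℝ) ≤ R * (nd (h x) (h y) : ℝ) := by exact_mod_cast h3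
    rw [hfac]
    have h4 := (hlip (ι x) (ι y)).trans (mul_le_mul_of_nonneg_left h3' hcard.le)
    refine (mul_le_mul_of_nonneg_left h4 hp0.le).trans ?_
    have : 1 / (Fintype.card Ω * (R : ℝ)) * (Fintype.card Ω * (R * (nd (h x) (h y) : ℝ))) =
        (nd (h x) (h y) : ℝ) := by field_simp
    rw [this]
  · intro x y
    rw [hfac]
    have hsum : (0 : ℝ) ≤ ∑ ω, |w ω (ι x) - w ω (ι y)| :=
      Finset.sum_nonneg fun _ _ => abs_nonneg _
    rcases Nat.eq_zero_or_pos (dN h B N x y) with h0 | h0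
    · rw [h0]
      push_cast
      positivity
    · have h3 : R * dN h B N x y ≤ W.G.dist (ι x) (ι y) := by
        rw [← hdN h]
        exact (dN_mul hc' R x y).trans (hlow x y)
      have h3' : (R : ℝ) * (dN h B N x y : ℝ) ≤ (W.G.dist (ι x) (ι y) : ℝ) := by
        exact_mod_cast h3
      have h4 : (1 : ℝ) ≤ (dN h B N x y : ℝ) := by exact_mod_cast h0
      have h5 : (2 : ℝ) ^ 92 ≤ W.d (ι x) (ι y) := by
        have e1 : (R : ℝ) = 2 ^ 92 := by rw [hR]; norm_num
        show (2 : ℝ) ^ 92 ≤ (W.G.dist (ι x) (ι y) : ℝ)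
        rw [← e1]
        nlinarith
      have h6 := h2 (ι x) (by rw [hN]; trivial) (ι y) (by rw [hN]; trivial) h5
      have h7 : (W.d (ι x) (ι y)) = (W.G.dist (ι x) (ι y) : ℝ) := rfl
      rw [h7] at h6
      have h8 : Fintype.card Ω * (1 / 2 ^ 190 * ((R : ℝ) * (dN h B N x y : ℝ))) ≤
          ∑ ω, |w ω (ι x) - w ω (ι y)| :=
        (mul_le_mul_of_nonneg_left (mul_le_mul_of_nonneg_left h3' (by positivity))
          hcard.le).trans h6
      have h9 := mul_le_mul_of_nonneg_left h8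
        (show (0 : ℝ) ≤ 2 ^ 190 * (1 / (Fintype.card Ω * (R : ℝ))) by positivity)
      have e2 : 2 ^ 190 * (1 / (Fintype.card Ω * (R : ℝ))) *
          (Fintype.card Ω * (1 / 2 ^ 190 * ((R : ℝ) * (dN h B N x y : ℝ)))) =
          (dN h B N x y : ℝ) := by field_simp
      rw [e2] at h9
      linarith

end Vale.Agent.P235.STO.H386
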