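import Vale.Agent.P235.ST.H317.Defs

/-!
P235 (ST) (helper386): the columns world of a word `H`: columns `0, …, N` of height `T`, the points
of height `a` of the columns `k`, `k + 1` are the same iff `a ∈ H k`.
-/

namespace Vale.Agent.P235.STO.H386

open SimpleGraph

section grid

variable (H : ℕ → Set ℕ)

open Classical in
/-- first column of the point of height `a` of column `k` -/
noncomputable def rep : ℕ → ℕ → ℕ
  | 0, _ => 0
  | k + 1, a => if a ∈ H k then rep k a else k + 1

theorem rep_succ_mem {k a : ℕ} (h : a ∈ H k) : rep H (k + 1) a = rep H k a := by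
  simp [rep, h]

theorem rep_succ_not {k a : ℕ} (h : a ∉ H k) : rep H (k + 1) a = k + 1 := by
  simp [rep, h]

theorem rep_le (k a : ℕ) : rep H k a ≤ k := by
  induction k with
  | zero => simp [rep]
  | succ k ih =>
    by_cases h : a ∈ H k
    · rw [rep_succ_mem H h]; omega
    · rw [rep_succ_not H h]

theorem rep_between {a : ℕ} : ∀ (k j : ℕ), rep H k a ≤ j → j ≤ k → rep H j a = rep H k a := by
  intro k
  induction k with
  | zero =>
    intro j h1 h2
    have : j = 0 := by omega
    rw [this]
  | succ k ih =>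
    intro j h1 h2
    by_cases h : a ∈ H k
    · rw [rep_succ_mem H h] at h1 ⊢
      rcases Nat.lt_or_ge k j with h3 | h3
      · have : j = k + 1 := by omega
        rw [this, rep_succ_mem H h]
      · exact ih j h1 h3
    · rw [rep_succ_not H h] at h1
      have : j = k + 1 := by omega
      rw [this]

theorem rep_rep (k a : ℕ) : rep H (rep H k a) a = rep H k a :=
  rep_between H k _ le_rfl (rep_le H k a)

variable (N T : ℕ)

/-- the points -/
def Pt : Type := {p : Fin (N + 1) × Fin (T + 1) // rep H p.1 p.2 = p.1}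

noncomputable instance : Fintype (Pt H N T) := by
  classical
  unfold Pt
  infer_instance

variable {N T}

/-- the point of height `a` of column `k` -/
noncomputable def pt (k a : ℕ) (hk : k ≤ N) (ha : a ≤ T) : Pt H N T :=
  ⟨(⟨rep H k a, by have := rep_le H k a; omega⟩, ⟨a, by omega⟩), rep_rep H k a⟩

/-- height -/
def ht (x : Pt H N T) : ℕ := x.1.2

/-- first column -/
def co (x : Pt H N T) : ℕ := x.1.1

variable {H}

theorem ht_le (x : Pt H N T) : ht H x ≤ T := by
  have := x.1.2.2
  unfold ht
  omega

theorem co_le (x : Pt H N T) : co H x ≤ N := by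
  have := x.1.1.2
  unfold co
  omega

theorem rep_co (x : Pt H N T) : rep H (co H x) (ht H x) = co H x := x.2

theorem ht_pt {k a : ℕ} (hk : k ≤ N) (ha : a ≤ T) : ht H (pt H k a hk ha) = a := rfl

theorem co_pt {k a : ℕ} (hk : k ≤ N) (ha : a ≤ T) : co H (pt H k a hk ha) = rep H k a := rfl

theorem pt_ext {x y : Pt H N T} (h1 : co H x = co H y) (h2 : ht H x = ht H y) : x = y := by
  apply Subtype.ext
  apply Prod.ext
  · exact Fin.ext h1
  · exact Fin.ext h2

theorem pt_co (x : Pt H N T) : pt H (co H x) (ht H x) (co_le x) (ht_le x) = x :=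
  pt_ext (rep_co x) rfl

/-- `x` lies in column `k` -/
def InCol (k : ℕ) (x : Pt H N T) : Prop := rep H k (ht H x) = co H x

theorem inCol_pt {k a : ℕ} (hk : k ≤ N) (ha : a ≤ T) : InCol k (pt H k a hk ha) := rfl

theorem inCol_co (x : Pt H N T) : InCol (co H x) x := rep_co x

theorem inCol_convex {i k j : ℕ} {x : Pt H N T} (h1 : i ≤ k) (h2 : k ≤ j) (hi : InCol i x)
    (hj : InCol j x) : InCol k x := by
  unfold InCol at *
  have h3 : rep H i (ht H x) ≤ i := rep_le H _ _
  rw [rep_between H j k (by rw [hj, ← hi]; omega) h2, hj]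

theorem eq_pt {k : ℕ} {x : Pt H N T} (hk : k ≤ N) (h : InCol k x) :
    x = pt H k (ht H x) hk (ht_le x) := pt_ext h.symm rfl

variable (H N T)

/-- the graph -/
def gr : SimpleGraph (Pt H N T) where
  Adj x y := (∃ k ≤ N, InCol k x ∧ InCol k y) ∧ (ht H x + 1 = ht H y ∨ ht H y + 1 = ht H x)
  symm := ⟨fun x y h => ⟨by obtain ⟨k, hk, h1, h2⟩ := h.1; exact ⟨k, hk, h2, h1⟩, h.2.symm⟩⟩
  loopless := ⟨fun x h => by rcases h.2 with h | h <;> omega⟩

variable {H N T}

/-- walk up a column -/
theorem exists_up {k : ℕ} (hk : k ≤ N) (a : ℕ) : ∀ (n : ℕ) (ha : a + n ≤ T),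
    ∃ w : (gr H N T).Walk (pt H k a hk (by omega)) (pt H k (a + n) hk ha), w.length = n ∧
      ∀ z ∈ w.support, InCol k z := by
  intro n
  induction n with
  | zero =>
    intro ha
    refine ⟨Walk.nil, rfl, ?_⟩
    intro z hz
    rw [Walk.support_nil, List.mem_singleton] at hz
    rw [hz]
    exact inCol_pt _ _
  | succ n ih =>
    intro ha
    obtain ⟨w, h1, h2⟩ := ih (by omega)
    have hadj : (gr H N T).Adj (pt H k (a + n) hk (by omega)) (pt H k (a + (n + 1)) hk ha) :=
      ⟨⟨k, hk, inCol_pt _ _, inCol_pt _ _⟩, Or.inl rfl⟩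
    refine ⟨w.concat hadj, by rw [Walk.length_concat, h1], ?_⟩
    intro z hz
    rw [Walk.support_concat, List.mem_append, List.mem_singleton] at hz
    rcases hz with hz | hz
    · exact h2 z hz
    · rw [hz]; exact inCol_pt _ _

/-- walk inside a column -/
theorem exists_col {k : ℕ} (hk : k ≤ N) {x y : Pt H N T} (hx : InCol k x) (hy : InCol k y)
    (h : ht H x ≤ ht H y) : ∃ w : (gr H N T).Walk x y, w.length = ht H y - ht H x ∧
      ∀ z ∈ w.support, InCol k z := by
  have hy' := ht_le y
  obtain ⟨w, h1, h2⟩ := exists_up (H := H) (T := T) hk (ht H x) (ht H y - ht H x) (by omega)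
  have e1 : pt H k (ht H x) hk (by omega) = x := (eq_pt hk hx).symm
  have e2 : pt H k (ht H x + (ht H y - ht H x)) hk (by omega) = y := by
    refine pt_ext ?_ ?_
    · rw [co_pt]
      have : ht H x + (ht H y - ht H x) = ht H y := by omega
      rw [this]
      exact hy
    · rw [ht_pt]; omega
  refine ⟨w.copy e1 e2, by rw [Walk.length_copy, h1], ?_⟩
  intro z hz
  rw [Walk.support_copy] at hz
  exact h2 z hz

theorem dist_col {k : ℕ} (hk : k ≤ N) {x y : Pt H N T} (hx : InCol k x) (hy : InCol k y) :
    (gr H N T).dist x y ≤ (ht H x - ht H y) + (ht H y - ht H x) := by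
  rcases le_total (ht H x) (ht H y) with h | h
  · obtain ⟨w, h1, -⟩ := exists_col hk hx hy h
    have := (gr H N T).dist_le w
    omega
  · obtain ⟨w, h1, -⟩ := exists_col hk hy hx h
    have := (gr H N T).dist_le w
    rw [SimpleGraph.dist_comm]
    omega

/-- separation -/
theorem sep_aux {k : ℕ} : ∀ {a b : Pt H N T} (w : (gr H N T).Walk a b) (i j : ℕ), i ≤ k → k ≤ j →
    InCol i a → InCol j b → ∃ z ∈ w.support, InCol k z := by
  intro a b w
  induction w with
  | nil =>
    intro i j h1 h2 h3 h4
    exact ⟨_, by simp, inCol_convex h1 h2 h3 h4⟩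
  | @cons a c b hac p ih =>
    intro i j h1 h2 h3 h4
    have hac' := hac
    obtain ⟨⟨m, hm, hma, hmc⟩, -⟩ := hac'
    rcases le_total k m with h | h
    · exact ⟨a, Walk.start_mem_support _, inCol_convex h1 h h3 hma⟩
    · obtain ⟨z, hz, hz2⟩ := ih m j h h2 hmc h4
      refine ⟨z, ?_, hz2⟩
      rw [Walk.support_cons]
      exact List.mem_cons_of_mem _ hz

/-- connectedness -/
theorem gr_conn (hH : ∀ k < N, ∃ a ∈ H k, a ≤ T) : (gr H N T).Connected := by
  have hcol : ∀ k (hk : k ≤ N) (x y : Pt H N T), InCol k x → InCol k y →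
      (gr H N T).Reachable x y := by
    intro k hk x y hx hy
    rcases le_total (ht H x) (ht H y) with h | h
    · obtain ⟨w, -⟩ := exists_col hk hx hy h
      exact w.reachable
    · obtain ⟨w, -⟩ := exists_col hk hy hx h
      exact w.reachable.symm
  have key : ∀ k (hk : k ≤ N) (x : Pt H N T), InCol k x →
      (gr H N T).Reachable (pt H 0 0 (Nat.zero_le _) (Nat.zero_le _)) x := by
    intro k
    induction k with
    | zero =>
      intro hk x hx
      exact hcol 0 hk _ _ (inCol_pt _ _) hx
    | succ k ih =>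
      intro hk x hx
      obtain ⟨a, ha, haT⟩ := hH k (by omega)
      have h1 := ih (by omega) (pt H k a (by omega) haT) (inCol_pt _ _)
      refine h1.trans (hcol (k + 1) hk _ _ ?_ hx)
      show rep H (k + 1) a = rep H k a
      exact rep_succ_mem H ha
  have : Nonempty (Pt H N T) := ⟨pt H 0 0 (Nat.zero_le _) (Nat.zero_le _)⟩
  refine ⟨fun x y => ?_⟩
  exact (key _ (co_le x) x (inCol_co x)).symm.trans (key _ (co_le y) y (inCol_co y))

/-- the columns world -/
noncomputable def world (hH : ∀ k < N, ∃ a ∈ H k, a ≤ T) : LWorld (Pt H N T) where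
  G := gr H N T
  u x := (ht H x : ℤ)
  N := Set.univ
  idx := co H
  L p := {z | InCol (co H p) z}
  conn := gr_conn hH
  unit x y hxy := by
    rcases hxy.2 with h | h
    · have : (ht H x : ℤ) - ht H y = -1 := by omega
      rw [this]; rfl
    · have : (ht H x : ℤ) - ht H y = 1 := by omega
      rw [this]; rfl
  mem_L p _ := inCol_co p
  L_sub p _ z hz := ⟨trivial, by
    have h1 : rep H (co H p) (ht H z) = co H z := hz
    rw [← h1]
    exact rep_le H _ _⟩
  L_path p _ a ha b hb hab := by
    obtain ⟨w, h1, h2⟩ := exists_col (co_le p) ha hb (by exact_mod_cast hab)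
    refine ⟨w, ?_, h2⟩
    rw [h1]
    have : ht H a ≤ ht H b := by exact_mod_cast hab
    omega
  L_level p _ x _ := ⟨pt H (co H p) (ht H x) (co_le p) (ht_le x), inCol_pt _ _, rfl⟩
  sep p _ a _ b _ h1 h2 q := sep_aux q _ _ h1 h2 (inCol_co a) (inCol_co b)
  hop a b q hq hin := by
    cases q with
    | nil => exact ⟨a, by simp, by simp⟩
    | @cons _ c _ hac p =>
      cases p with
      | nil =>
        refine ⟨a, by simp, ?_⟩
        rcases hac.2 with h | h
        · have : (ht H b : ℤ) - ht H a = 1 := by omega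
          simp only [sub_self, this, Walk.length_cons, Walk.length_nil]
          norm_num
        · have : (ht H b : ℤ) - ht H a = -1 := by omega
          simp only [sub_self, this, Walk.length_cons, Walk.length_nil]
          norm_num
      | @cons _ e _ hce r =>
        exfalso
        have h1 := hq.support_nodup
        rw [Walk.support_cons, Walk.support_cons, List.nodup_cons, List.nodup_cons] at h1
        refine hin c (by simp) ?_ ?_ trivial
        · rintro rfl
          exact h1.1 (by simp)
        · rintro rfl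
          exact h1.2.1 r.end_mem_support

end grid

end Vale.Agent.P235.STO.H386
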