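import Mathlib.Combinatorics.SimpleGraph.Metric
import Mathlib.Data.Real.Basic
import Mathlib.Algebra.BigOperators.Ring.Finset

/-!
P235 (ST): the abstract world (literals of helper751, board #23318).
-/

namespace Vale.Agent.P235.ST

open Finset

/-- a finite connected graph with unit edges of slope `±1` for the height `u`, and lines `L k` -/
structure UW {V : Type} (G : SimpleGraph V) (u : V → ℤ) (idx : V → ℕ) (L : ℕ → Set V) : Prop where
  conn : G.Connected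
  step : ∀ x y, G.Adj x y → |u x - u y| = 1
  mem : ∀ p, p ∈ L (idx p)
  low : ∀ k, ∀ z ∈ L k, idx z ≤ k
  line : ∀ k, ∀ x ∈ L k, ∀ y ∈ L k, u x ≤ u y → ∃ w : G.Walk x y, (w.length : ℤ) = u y - u x ∧
    ∀ z ∈ w.support, z ∈ L k ∧ u x ≤ u z ∧ u z ≤ u y
  full : ∀ p z, ∃ x ∈ L (idx p), u x = u z
  sep : ∀ p a b (w : G.Walk a b), idx a ≤ idx p → idx p ≤ idx b →
    ∃ z ∈ w.support, z ∈ L (idx p)

/-- the abstract theorem to be proved -/
def Main (c r0 : ℝ) : Prop :=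
  ∀ (V : Type) [Fintype V] (G : SimpleGraph V) (u : V → ℤ) (idx : V → ℕ) (L : ℕ → Set V),
    UW G u idx L → ∃ (Ω : Type) (_ : Fintype Ω) (p : Ω → ℝ) (w : Ω → V → ℝ),
      (∀ ω, 0 ≤ p ω) ∧ (∀ x y, G.Adj x y → ∑ ω, p ω * |w ω x - w ω y| ≤ 1) ∧
      ∀ x y, r0 ≤ (G.dist x y : ℝ) → c * (G.dist x y : ℝ) ≤ ∑ ω, p ω * |w ω x - w ω y|

end Vale.Agent.P235.ST
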