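import Vale.Agent.P235.ST.H386.Grid
import Vale.Agent.P235.R2.RED.Bags

/-!
P235 (ST) (helper386): from part B to the O(1) form of `Red.core`.
-/

namespace Vale.Agent.P235.STO.H386

open SimpleGraph Vale.Agent.P235 Vale.Agent.P235.Red Finset

section phi

variable {V : Type} {h : V → ℕ} {B : ℕ → Set V} {N T : ℕ}

/-- distance of `x` to the point of height `a` of column `k` -/
noncomputable def phi (h : V → ℕ) (B : ℕ → Set V) (N : ℕ) (x : V) (k a : ℕ) : ℕ :=
  sInf {n | ∃ v ∈ B k, n = dN h B N x v + nd (h v) a}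

theorem phi_le (x : V) {k a : ℕ} {v : V} (hv : v ∈ B k) :
    phi h B N x k a ≤ dN h B N x v + nd (h v) a := Nat.sInf_le ⟨v, hv, rfl⟩

theorem phi_mem (x : V) {k : ℕ} (hk : (B k).Nonempty) (a : ℕ) :
    ∃ v ∈ B k, phi h B N x k a = dN h B N x v + nd (h v) a := by
  obtain ⟨v, hv⟩ := hk
  have h1 : ({n | ∃ v ∈ B k, n = dN h B N x v + nd (h v) a} : Set ℕ).Nonempty :=
    ⟨_, v, hv, rfl⟩
  exact Nat.sInf_mem h1

theorem phi_lip (x : V) {k : ℕ} (hk : (B k).Nonempty) (a b : ℕ) :
    phi h B N x k b ≤ phi h B N x k a + nd a b := by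
  obtain ⟨v, hv, h1⟩ := phi_mem (h := h) (N := N) x hk a
  have h2 := phi_le (h := h) (N := N) (a := b) x hv
  have h3 : nd (h v) b ≤ nd (h v) a + nd a b := by unfold nd; omega
  omega

theorem phi_at (hc : (bagGraph B N).Connected) (x : V) {k : ℕ} (hk : k ≤ N) {z : V}
    (hz : z ∈ B k) : phi h B N x k (h z) = dN h B N x z := by
  apply le_antisymm
  · have := phi_le (h := h) (N := N) (a := h z) x hz
    have h2 : nd (h z) (h z) = 0 := by unfold nd; omega
    omega
  · obtain ⟨v, hv, h1⟩ := phi_mem (h := h) (N := N) x ⟨z, hz⟩ (h z)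
    rw [h1]
    exact dN_lip hc x hk hv hz

theorem phi_keep (hc : (bagGraph B N).Connected) (x : V) {k : ℕ} (hk : k < N) {a : ℕ}
    (ha : a ∈ keep h B k) : phi h B N x k a = phi h B N x (k + 1) a := by
  obtain ⟨z, h1, h2, rfl⟩ := ha
  rw [phi_at hc x hk.le h1, phi_at hc x hk h2]

theorem phi_rep (hc : (bagGraph B N).Connected) (x : V) (a : ℕ) : ∀ k ≤ N,
    phi h B N x (rep (keep h B) k a) a = phi h B N x k a := by
  intro k
  induction k with
  | zero => intro _; rfl
  | succ k ih =>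
    intro hk
    by_cases h1 : a ∈ keep h B k
    · rw [rep_succ_mem _ h1, ih (by omega), phi_keep hc x (by omega) h1]
    · rw [rep_succ_not _ h1]

/-- lower bound along walks -/
theorem phi_walk (hc : (bagGraph B N).Connected) (hne : ∀ k ≤ N, (B k).Nonempty) (x : V) :
    ∀ {a b : Pt (keep h B) N T} (w : (gr (keep h B) N T).Walk a b),
      phi h B N x (co _ b) (ht _ b) ≤ phi h B N x (co _ a) (ht _ a) + w.length := by
  intro a b w
  induction w with
  | nil => simp
  | @cons a c b hac p ih =>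
    have hac' := hac
    obtain ⟨⟨m, hm, hma, hmc⟩, h1⟩ := hac'
    have e1 : phi h B N x (co _ a) (ht _ a) = phi h B N x m (ht _ a) := by
      rw [← phi_rep hc x _ m hm]
      exact congrArg (fun i => phi h B N x i (ht _ a)) hma.symm
    have e2 : phi h B N x (co _ c) (ht _ c) = phi h B N x m (ht _ c) := by
      rw [← phi_rep hc x _ m hm]
      exact congrArg (fun i => phi h B N x i (ht _ c)) hmc.symm
    have h2 := phi_lip (h := h) (N := N) x (hne m hm) (ht _ a) (ht _ c)
    have h3 : nd (ht (keep h B) a) (ht (keep h B) c) = 1 := by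
      unfold nd
      rcases h1 with h1 | h1 <;> omega
    rw [Walk.length_cons]
    omega

end phi

section main

/-- what part B gives for a world with all vertices lined -/
def Good {V : Type} (W : LWorld V) : Prop :=
  ∃ (Ω : Type) (_ : Fintype Ω) (_ : Nonempty Ω) (w : Ω → V → ℝ),
    (∀ x y, W.G.Adj x y → ∑ o, |w o x - w o y| ≤ Fintype.card Ω) ∧
    ∀ x ∈ W.N, ∀ y ∈ W.N, 2 ^ 92 ≤ W.d x y →
      Fintype.card Ω * (1 / 2 ^ 190 * W.d x y) ≤ ∑ o, |w o x - w o y|

/-- the world of bags -/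
theorem exists_world {V : Type} [Finite V] (h : V → ℕ) (B : ℕ → Set V) (N : ℕ)
    (hc : (bagGraph B N).Connected) (every : ∀ v, ∃ i ≤ N, v ∈ B i)
    (convex : ∀ v i j k, i ≤ j → j ≤ k → k ≤ N → v ∈ B i → v ∈ B k → v ∈ B j)
    (hne : ∀ k ≤ N, (B k).Nonempty) :
    ∃ (V' : Type) (_ : Fintype V') (W : LWorld V') (ι : V → V'), W.N = Set.univ ∧
      (∀ i ≤ N, ∀ x ∈ B i, ∀ y ∈ B i, W.G.dist (ι x) (ι y) ≤ nd (h x) (h y)) ∧
      ∀ x y, dN h B N x y ≤ W.G.dist (ι x) (ι y) := by
  classical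
  obtain ⟨T, hT⟩ : ∃ T, ∀ v, h v ≤ T := by
    obtain ⟨T, hT⟩ := (Set.finite_range h).bddAbove
    exact ⟨T, fun v => hT ⟨v, rfl⟩⟩
  -- consecutive bags meet
  have hH : ∀ k < N, ∃ a ∈ keep h B k, a ≤ T := by
    intro k hk
    by_contra hcon
    have hno : ∀ z, z ∈ B k → z ∉ B (k + 1) := fun z h1 h2 =>
      hcon ⟨h z, ⟨z, h1, h2, rfl⟩, hT z⟩
    -- the set of vertices in bags `≤ k`
    obtain ⟨x, hx⟩ := hne k hk.le
    obtain ⟨y, hy⟩ := hne (k + 1) hk
    have hstep : ∀ {a b : V} (w : (bagGraph B N).Walk a b), (∃ i ≤ k, a ∈ B i) →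
        ∃ i ≤ k, b ∈ B i := by
      intro a b w
      induction w with
      | nil => exact id
      | @cons a c b hac p ih =>
        rintro ⟨i, hi, hai⟩
        obtain ⟨-, m, hm, ham, hcm⟩ := hac
        refine ih ?_
        rcases Nat.lt_or_ge k m with h1 | h1
        · exfalso
          exact hno a (convex a i k m hi h1.le hm hai ham)
            (convex a i (k + 1) m (by omega) h1 hm hai ham)
        · exact ⟨m, h1, hcm⟩
    obtain ⟨w⟩ := hc x y
    obtain ⟨i, hi, hyi⟩ := hstep w ⟨k, le_rfl, hx⟩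
    exact hno y (convex y i k (k + 1) hi (by omega) hk hyi hy) hy
  choose idx hidx hmem using every
  let ι : V → Pt (keep h B) N T := fun x => pt _ (idx x) (h x) (hidx x) (hT x)
  have hin : ∀ x, ∀ i ≤ N, x ∈ B i → InCol i (ι x) := by
    intro x i hi hx
    show rep (keep h B) i (h x) = rep (keep h B) (idx x) (h x)
    have key : ∀ i k, i ≤ k → k ≤ N → x ∈ B i → x ∈ B k →
        rep (keep h B) k (h x) = rep (keep h B) i (h x) := by
      intro i k hik
      induction k, hik using Nat.le_induction with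
      | base => intros; rfl
      | succ k hik ih =>
        intro hk hxi hxk
        have h1 := convex x i k (k + 1) hik (by omega) hk hxi hxk
        rw [rep_succ_mem _ (show h x ∈ keep h B k from ⟨x, h1, hxk, rfl⟩)]
        exact ih (by omega) hxi h1
    rcases le_total i (idx x) with h1 | h1
    · exact (key i (idx x) h1 (hidx x) hx (hmem x)).symm
    · exact key (idx x) i h1 hi (hmem x) hx
  refine ⟨Pt (keep h B) N T, inferInstance, world hH, ι, rfl, ?_, ?_⟩
  · intro i hi x hx y hy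
    exact dist_col hi (hin x i hi hx) (hin y i hi hy)
  · intro x y
    obtain ⟨w, hw⟩ := (gr_conn hH).exists_walk_length_eq_dist (ι x) (ι y)
    have h1 := phi_walk hc hne x w
    have e1 : phi h B N x (co _ (ι x)) (ht _ (ι x)) = 0 := by
      show phi h B N x (rep (keep h B) (idx x) (h x)) (h x) = 0
      rw [phi_rep hc x _ _ (hidx x), phi_at hc x (hidx x) (hmem x), dN_self]
    have e2 : phi h B N x (co _ (ι y)) (ht _ (ι y)) = dN h B N x y := by
      show phi h B N x (rep (keep h B) (idx y) (h y)) (h y) = _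
      rw [phi_rep hc x _ _ (hidx y), phi_at hc x (hidx y) (hmem y)]
    show _ ≤ (gr (keep h B) N T).dist (ι x) (ι y)
    omega

end main

end Vale.Agent.P235.STO.H386
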